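import Vale.Agent.P101.Bdl.B2

/-! If the central sequence algebra of a unital separable C*-algebra `A` has no characters, then
`A` is isomorphic to its tensor product with the Jiang-Su algebra; moreover, the absence of
characters is equivalent to the existence of unital homs from dimension drop algebras. -/

namespace Vale.Agent.Results.P101.Main

universe u

open Vale.Agent.P101

theorem result (A : Type u) [CStarAlgebra A] [TopologicalSpace.SeparableSpace A]
    (ω : Ultrafilter ℕ) (hω : (ω : Filter ℕ) ≤ Filter.cofinite) :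
    ((¬ ∃ χ : (ℕ → A) → ℂ, IsCharacter (ω : Filter ℕ) χ) → IsZStable A) ∧
    ((¬ ∃ χ : (ℕ → A) → ℂ, IsCharacter (ω : Filter ℕ) χ) ↔
      DimDropMaps A (ω : Filter ℕ) 2 3) ∧
    ((¬ ∃ χ : (ℕ → A) → ℂ, IsCharacter (ω : Filter ℕ) χ) ↔
      ∀ p q : ℕ, 0 < p → 0 < q → Nat.Coprime p q → DimDropMaps A (ω : Filter ℕ) p q) :=
  main_all A ω hω

end Vale.Agent.Results.P101.Main
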